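import Vale.Agent.P017.H506.R0
import Vale.Agent.P017.H443.L3

/-!
# Leaf T7a: the main term of a good set is a product over the primes
-/

namespace Vale.Agent.P017.H506

open Finset Function Vale.Agent.P014.FM
open Vale.Agent.P017.H443 (sg sg_zero sg_one sg_add sg_sum em wq wm wm_add cop z2_cases sum_swap
  prod_eq_sg em_sq sum_supp Dc wtP_Dc prod_mod)

namespace T7a

theorem slot_one (x y z : ZMod 2) : slot x y z 1 = 1 := by
  have h5 : J 1 5 = 1 := H443.J_one_left 5
  have h3 : J 1 3 = 1 := H443.J_one_left 3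
  have h8 : chi8 1 = 1 := by
    unfold chi8
    rw [Nat.cast_one, map_one, Int.cast_one]
  unfold slot
  rw [h5, h3, h8]
  simp

theorem chi8_mul (a b : ℕ) : chi8 (a * b) = chi8 a * chi8 b := by
  unfold chi8
  rw [Nat.cast_mul, map_mul, Int.cast_mul]

theorem slot_mul (x y z : ZMod 2) (a b : ℕ) : slot x y z (a * b) = slot x y z a * slot x y z b := by
  unfold slot
  rw [chi8_mul, Vale.Agent.P014.H580.J_mul_left, Vale.Agent.P014.H580.J_mul_left]
  split_ifs <;> ring

theorem slot_prod {ι : Type*} (x y z : ZMod 2) (s : Finset ι) (f : ι → ℕ) :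
    slot x y z (∏ i ∈ s, f i) = ∏ i ∈ s, slot x y z (f i) := by
  classical
  induction s using Finset.induction_on with
  | empty => simp [slot_one]
  | insert i s hi ih => rw [Finset.prod_insert hi, Finset.prod_insert hi, slot_mul, ih]

theorem odd_of {n : ℕ} (h2 : n % 2 = 1) (p : n.primeFactors) : (p : ℕ) % 2 = 1 := by
  have h1 := Nat.dvd_of_mem_primeFactors p.2
  by_contra hc
  have h3 : 2 ∣ (p : ℕ) := by omega
  have := h3.trans h1
  omega

theorem wq_add {n : ℕ} (h2 : n % 2 = 1) (p q : n.primeFactors) :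
    wq p q + wq q p = em p * em q + (if p = q then em p else 0) := by
  unfold H443.wq
  by_cases h : p = q
  · subst h
    rw [if_pos rfl, if_pos rfl, add_zero]
    unfold H443.em
    split_ifs <;> decide
  · rw [if_neg h, if_neg (Ne.symm h), if_neg h, add_zero,
      wm_add (odd_of h2 p) (odd_of h2 q) (cop h)]

theorem sum_em {n : ℕ} (hn : Squarefree n) (h2 : n % 2 = 1) :
    (∑ p : n.primeFactors, em p) + 1 = if n % 4 = 1 then 1 else 0 := by
  rw [Finset.sum_coe_sort n.primeFactors (fun p => em p)]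
  have h := prod_mod n.primeFactors fun p hp => odd_of h2 ⟨p, hp⟩
  rw [Nat.prod_primeFactors_of_squarefree hn] at h
  rcases h with h | h
  · rw [h.2, if_pos h.1]; decide
  · rw [h.2, if_neg (by omega)]; decide

theorem sum_lin {n : ℕ} (hn : Squarefree n) (h2 : n % 2 = 1) (s : n.primeFactors → ZMod 2) :
    ∑ p, ∑ q, wq p q * (s p + s q) =
      ∑ p : n.primeFactors, (if n % 4 = 1 then em p * s p else 0) := by
  rw [sum_swap (fun p _ => s p)]
  refine Finset.sum_congr rfl fun p _ => ?_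
  rw [← Finset.sum_mul]
  have h1 : ∑ q, (wq p q + wq q p) = em p * (if n % 4 = 1 then 1 else 0) := by
    rw [Finset.sum_congr rfl fun q _ => wq_add h2 p q, Finset.sum_add_distrib, ← Finset.mul_sum,
      Finset.sum_ite_eq, if_pos (Finset.mem_univ _), ← sum_em hn h2]
    ring
  rw [h1]
  split_ifs <;> ring

theorem sgn2_eq (a : ZMod 2) : sg a = sgn2 a := by
  rcases z2_cases a with rfl | rfl
  · rw [sg_zero, sgn2, if_neg (by decide)]
  · rw [sg_one, sgn2, if_pos rfl]

theorem sg_term {n : ℕ} (p : ℕ) (s : ZMod 2) :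
    sg (if n % 4 = 1 then em p * s else 0) =
      if p % 4 = 3 ∧ n % 4 = 1 then sgn2 s else 1 := by
  have h0 : sgn2 0 = 1 := by rw [sgn2, if_neg (by decide)]
  unfold H443.em
  by_cases h1 : n % 4 = 1 <;> by_cases h3 : p % 4 = 3 <;> simp [h1, h3, sgn2_eq, h0]

theorem slots_Dc {ι : Type*} [Fintype ι] [DecidableEq ι] (a b d : ι → ZMod 2) {n : ℕ}
    (c : n.primeFactors → ι) :
    ∏ u, slot (a u) (b u) (d u) (Dc c u) =
      ∏ p : n.primeFactors, slot (a (c p)) (b (c p)) (d (c p)) p := by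
  have h1 : ∀ u : ι, slot (a u) (b u) (d u) (Dc c u) =
      ∏ p ∈ Finset.univ.filter (fun p => c p = u), slot (a (c p)) (b (c p)) (d (c p)) p := by
    intro u
    unfold H443.Dc
    rw [slot_prod]
    refine Finset.prod_congr rfl fun p hp => ?_
    rw [Finset.mem_filter] at hp
    rw [hp.2]
  rw [Finset.prod_congr rfl fun u _ => h1 u]
  exact Finset.prod_fiberwise _ _ _

end T7a

open T7a in
/-- T7a -/
theorem good_prod (tp k : ℕ) (θ : Tx k) {U : Finset (Ix k)} (hU : U ∈ UsN (Pk k) (2 ^ k))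
    (hg : Good (Pk k) U) {u₀ : Ix k} (hu₀ : u₀ ∈ U) {n : ℕ} (hn : Squarefree n) (h2 : n % 2 = 1) :
    mainT tp θ U n = ∏ p ∈ n.primeFactors, ((1 / ((2 ^ k : ℕ) : ℝ)) *
      ∑ u ∈ U, slot (E8 tp θ u) (E5 θ u) (E3 θ u) p *
        (if p % 4 = 3 ∧ n % 4 = 1 then sgn2 (Pk k u₀ u) else 1)) := by
  have hsymm : ∀ u ∈ U, ∀ v ∈ U, Pk k u v = Pk k v u := by
    classical
    unfold UsN at hU
    rw [Finset.mem_filter] at hU
    exact hU.2.2
  have hdiag : ∀ u ∈ U, Pk k u u = 0 := fun u hu => by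
    rw [hg u hu u hu u hu]; exact CharTwo.add_self_eq_zero _
  unfold mainT mainS
  rw [sum_supp hn U (wtS (Pk k) (E8 tp θ) (E5 θ) (E3 θ))]
  have h1 : ∀ c ∈ Fintype.piFinset (fun _ : n.primeFactors => U),
      wtS (Pk k) (E8 tp θ) (E5 θ) (E3 θ) (Dc c) =
        ∏ p : n.primeFactors, (slot (E8 tp θ (c p)) (E5 θ (c p)) (E3 θ (c p)) p *
          (if (p : ℕ) % 4 = 3 ∧ n % 4 = 1 then sgn2 (Pk k u₀ (c p)) else 1)) := by
    intro c hc
    rw [Fintype.mem_piFinset] at hc
    rw [Finset.prod_mul_distrib, wtS, slots_Dc, wtP_Dc,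
      prod_eq_sg (fun p q => Pk k (c p) (c q)) (fun p => hdiag _ (hc p))]
    congr 1
    have h3 : ∑ p, ∑ q, wq p q * Pk k (c p) (c q) =
        ∑ p : n.primeFactors, (if n % 4 = 1 then em p * Pk k u₀ (c p) else 0) := by
      rw [← sum_lin hn h2 (fun p => Pk k u₀ (c p))]
      refine Finset.sum_congr rfl fun p _ => Finset.sum_congr rfl fun q _ => ?_
      rw [hg _ (hc p) _ (hc q) _ hu₀, hsymm _ (hc p) _ hu₀, hsymm _ (hc q) _ hu₀]
    rw [h3, sg_sum]
    exact Finset.prod_congr rfl fun p _ => sg_term _ _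
  rw [Finset.sum_congr rfl h1, ← Finset.prod_univ_sum (fun _ : n.primeFactors => U)
    (fun p u => slot (E8 tp θ u) (E5 θ u) (E3 θ u) p *
      (if (p : ℕ) % 4 = 3 ∧ n % 4 = 1 then sgn2 (Pk k u₀ u) else 1)),
    Finset.prod_mul_distrib, Finset.prod_const]
  congr 1
  exact Finset.prod_coe_sort n.primeFactors (fun p => ∑ u ∈ U,
    slot (E8 tp θ u) (E5 θ u) (E3 θ u) p *
      (if p % 4 = 3 ∧ n % 4 = 1 then sgn2 (Pk k u₀ u) else 1))

end Vale.Agent.P017.H506
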